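import Crest.Agent.X262.Kah.Hdg

/-!
# X262 / Irr93 (helper93), file Hpq: Hodge numbers of a Kaehler package

* `qrk Z B`   : the dimension of `Z / (Z ∩ B)`;
* `G.hpq p q` : the Hodge numbers; `hpq_symm`, `hpq_dual`, `hpq_out`;
* `qrk_dR` (`b_k = ∑ h^{p,q}`), `qrk_dol` (Dolbeault), `finrank_hol` (`h^{p,0}`).
-/

set_option autoImplicit false
set_option linter.unusedSectionVars false

open Complex Module
open scoped ComplexConjugate

namespace Crest.Agent.X262.Kah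

noncomputable section

variable {n : ℕ} {S : Type*} [AddCommGroup S] [Module ℂ S]

/-- the dimension of `Z / (Z ∩ B)` -/
def qrk (Z B : Submodule ℂ S) : ℕ := finrank ℂ (Z ⧸ B.comap Z.subtype)

theorem qrk_eq_map (Z N : Submodule ℂ S) : qrk Z N = finrank ℂ (Z.map N.mkQ) := by
  have h := (N.mkQ ∘ₗ Z.subtype).quotKerEquivRange.finrank_eq
  rw [LinearMap.ker_comp, Submodule.ker_mkQ, LinearMap.range_comp, Submodule.range_subtype] at h
  exact h

theorem qrk_congr {Z B B' : Submodule ℂ S} (h : ∀ z ∈ Z, z ∈ B ↔ z ∈ B') : qrk Z B = qrk Z B' := by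
  have : B.comap Z.subtype = B'.comap Z.subtype := Submodule.ext fun z => h z.1 z.2
  rw [qrk, qrk, this]

theorem qrk_bot {Z B : Submodule ℂ S} (h : ∀ z ∈ Z, z ∈ B → z = 0) : qrk Z B = finrank ℂ Z := by
  have : B.comap Z.subtype = ⊥ := eq_bot_iff.2 fun z hz => Subtype.ext (h z.1 z.2 hz)
  rw [qrk, this]
  exact (Submodule.quotEquivOfEqBot _ rfl).finrank_eq

theorem trace_idem [FiniteDimensional ℂ S] {T : Module.End ℂ S} (h : ∀ u, T (T u) = T u) :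
    LinearMap.trace ℂ S T = finrank ℂ (LinearMap.range T) :=
  LinearMap.IsProj.trace (p := LinearMap.range T)
    ⟨fun u => ⟨u, rfl⟩, by rintro _ ⟨u, rfl⟩; exact h u⟩

namespace GS

variable (G : GS n S)

/-- the dimension of the space of elements of type `(p,q)` -/
def rk (p q : ℤ) : ℕ := finrank ℂ (LinearMap.range (G.pr p q))

theorem trace_pr [FiniteDimensional ℂ S] (p q : ℤ) :
    LinearMap.trace ℂ S (G.pr p q) = G.rk p q := trace_idem (G.ty_pr p q)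

theorem rk_dual [FiniteDimensional ℂ S] (p q : ℤ) : G.rk (n - q) (n - p) = G.rk p q := by
  have h : G.pr (n - q) (n - p) = G.w * (G.pr p q * G.wI) := by
    rw [← mul_assoc, show G.w * G.pr p q = G.pr (n - q) (n - p) * G.w from
      LinearMap.ext (w_pr p q), mul_assoc, G.w_wI, mul_one]
  have h2 := G.trace_pr (n - q) (n - p)
  rw [h, LinearMap.trace_mul_comm, mul_assoc, G.wI_w, mul_one, trace_pr] at h2
  exact_mod_cast h2.symm

theorem sum_pr_idem (s : Finset (ℤ × ℤ)) (u : S) :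
    (∑ x ∈ s, G.pr x.1 x.2) ((∑ x ∈ s, G.pr x.1 x.2) u) = (∑ x ∈ s, G.pr x.1 x.2) u := by
  simp only [LinearMap.sum_apply, map_sum]
  refine Finset.sum_congr rfl fun x hx => ?_
  rw [Finset.sum_eq_single x (fun y _ h => (G.ty_pr x.1 x.2 u).pr_ne h) (fun h => absurd hx h)]
  exact G.ty_pr _ _ u

theorem finrank_sum_pr [FiniteDimensional ℂ S] (s : Finset (ℤ × ℤ)) :
    finrank ℂ (LinearMap.range (∑ x ∈ s, G.pr x.1 x.2)) = ∑ x ∈ s, G.rk x.1 x.2 := by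
  have h := trace_idem (G.sum_pr_idem s)
  simp only [map_sum, trace_pr] at h
  exact_mod_cast h.symm

end GS

namespace KA

variable (G : KA n S)

/-- closed elements of pure type -/
def PCs (p q : ℤ) : Submodule ℂ S where
  carrier := {z | G.PC p q z}
  add_mem' := PC.add
  zero_mem' := PC.zero p q
  smul_mem' := fun c _ h => h.smul c

/-- the Hodge numbers -/
def hpq (p q : ℤ) : ℕ := qrk (G.PCs p q) (LinearMap.range G.d)

end KA

namespace IsN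

variable {G : KA n S} {N : Submodule ℂ S} (h : IsN G N)
include h

theorem gq_pr (p q : ℤ) (u : S) : h.gq.pr p q (N.mkQ u) = N.mkQ (G.pr p q u) := rfl

theorem hpq_eq (p q : ℤ) : G.hpq p q = h.gq.rk p q := by
  rw [KA.hpq, qrk_congr (Z := G.PCs p q) (B := LinearMap.range G.d) (B' := N)
    fun z hz => h.ex_iff (KA.PC.cl hz), qrk_eq_map, GS.rk]
  refine congrArg (fun W : Submodule ℂ (S ⧸ N) => finrank ℂ W) (le_antisymm ?_ ?_)
  · rintro _ ⟨z, hz, rfl⟩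
    exact ⟨_, h.gq_ty (KA.PC.ty hz)⟩
  · rintro _ ⟨x, rfl⟩
    exact h.gq_rep (h.gq.ty_pr p q x)

theorem rk_symm (p q : ℤ) : h.gq.rk q p = h.gq.rk p q := by
  let c : (S ⧸ N) →ₛₗ[starRingEnd ℂ] (S ⧸ N) := N.mapQ N G.cj h.cj
  have hc : ∀ x, c (c x) = x := fun x => by
    obtain ⟨u, rfl⟩ := N.mkQ_surjective x
    exact congrArg N.mkQ (G.cj_cj u)
  have hp : ∀ p q, ∀ x ∈ LinearMap.range (h.gq.pr p q), c x ∈ LinearMap.range (h.gq.pr q p) := by
    rintro p q _ ⟨x, rfl⟩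
    obtain ⟨u, rfl⟩ := N.mkQ_surjective x
    exact ⟨N.mkQ (G.cj u), (congrArg N.mkQ (G.cj_pr p q u)).symm⟩
  let e : LinearMap.range (h.gq.pr q p) ≃+ LinearMap.range (h.gq.pr p q) :=
    { toFun := fun x => ⟨c x.1, hp _ _ _ x.2⟩
      invFun := fun x => ⟨c x.1, hp _ _ _ x.2⟩
      left_inv := fun x => Subtype.ext (hc _)
      right_inv := fun x => Subtype.ext (hc _)
      map_add' := fun x y => Subtype.ext (map_add c _ _) }
  have := rank_eq_of_equiv_equiv (starRingEnd ℂ) e star_involutive.bijective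
    fun r m => Subtype.ext (map_smulₛₗ c r m.1)
  rw [GS.rk, GS.rk, finrank, finrank, this]

end IsN

namespace KP

variable (G : KP n S)

theorem hpq_symm (p q : ℤ) : G.hpq q p = G.hpq p q := by
  obtain ⟨N, h⟩ := G.exists_N
  rw [h.hpq_eq, h.hpq_eq, h.rk_symm]

theorem hpq_dual (p q : ℤ) : G.hpq (n - p) (n - q) = G.hpq p q := by
  obtain ⟨N, h⟩ := G.exists_N
  have := h.fin
  rw [G.hpq_symm, h.hpq_eq, h.hpq_eq, GS.rk_dual]

theorem hpq_out {p q : ℤ} (ho : (p, q) ∉ box n) : G.hpq p q = 0 := by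
  obtain ⟨N, h⟩ := G.exists_N
  rw [h.hpq_eq, GS.rk, h.gq.pr_out p q ho, LinearMap.range_zero, finrank_bot]

/-- **de Rham**: closed elements with components in `s` -/
theorem qrk_dR (s : Finset (ℤ × ℤ)) {Z B : Submodule ℂ S}
    (hZ : ∀ a, a ∈ Z ↔ G.d a = 0 ∧ ∑ x ∈ s, G.pr x.1 x.2 a = a)
    (hB : ∀ a ∈ Z, a ∈ B ↔ G.Ex a) : qrk Z B = ∑ x ∈ s, G.hpq x.1 x.2 := by
  obtain ⟨N, h⟩ := G.exists_N
  have := h.fin
  rw [qrk_congr (B' := N) fun z hz => (hB z hz).trans (h.ex_iff ((hZ z).1 hz).1), qrk_eq_map]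
  simp only [h.hpq_eq]
  rw [← GS.finrank_sum_pr]
  refine congrArg (fun W : Submodule ℂ (S ⧸ N) => finrank ℂ W) (le_antisymm ?_ ?_)
  · rintro _ ⟨z, hz, rfl⟩
    refine ⟨N.mkQ z, ?_⟩
    conv_rhs => rw [← ((hZ z).1 hz).2]
    simp only [LinearMap.sum_apply, map_sum, h.gq_pr]
  · rintro _ ⟨x, rfl⟩
    rw [LinearMap.sum_apply]
    refine Submodule.sum_mem _ fun y hy => ?_
    obtain ⟨z, z1, z2⟩ := h.gq_rep (h.gq.ty_pr y.1 y.2 x)
    refine ⟨z, (hZ z).2 ⟨z1.cl, ?_⟩, z2⟩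
    rw [Finset.sum_eq_single y (fun w _ hw => z1.ty.pr_ne hw) (fun h' => absurd hy h')]
    exact z1.ty

/-- **Dolbeault** -/
theorem qrk_dol (p q : ℤ) {Z B : Submodule ℂ S} (hZ : ∀ a, a ∈ Z ↔ G.Ty p q a ∧ G.db a = 0)
    (hB : ∀ a ∈ Z, a ∈ B ↔ ∃ y, G.Ty p (q - 1) y ∧ G.db y = a) : qrk Z B = G.hpq p q := by
  obtain ⟨N, h⟩ := G.exists_N
  rw [qrk_congr (B' := N) fun z hz => (hB z hz).trans ⟨fun ⟨y, _, hy⟩ => hy ▸ h.db y,
    fun hN => h.exact_ty hN ((hZ z).1 hz).1 ((hZ z).1 hz).2⟩, qrk_eq_map, h.hpq_eq, GS.rk]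
  refine congrArg (fun W : Submodule ℂ (S ⧸ N) => finrank ℂ W) (le_antisymm ?_ ?_)
  · rintro _ ⟨z, hz, rfl⟩
    exact ⟨_, h.gq_ty ((hZ z).1 hz).1⟩
  · rintro _ ⟨x, rfl⟩
    obtain ⟨z, z1, z2⟩ := h.gq_rep (h.gq.ty_pr p q x)
    exact ⟨z, (hZ z).2 ⟨z1.ty, z1.db⟩, z2⟩

/-- holomorphic forms -/
theorem finrank_hol (p : ℤ) {Z : Submodule ℂ S} (hZ : ∀ a, a ∈ Z ↔ G.Ty p 0 a ∧ G.db a = 0) :
    finrank ℂ Z = G.hpq p 0 := by
  rw [← qrk_bot (B := ⊥) fun _ _ h => h]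
  refine G.qrk_dol p 0 hZ fun a _ => ⟨fun h => ⟨0, GS.Ty.zero _ _, by rw [map_zero, h]⟩, ?_⟩
  rintro ⟨y, h1, rfl⟩
  rw [h1.eq_zero fun hb => by have := (mem_box.1 hb).2.1; omega, map_zero]
  exact zero_mem _


/-- without holomorphic one-forms every closed one-form is exact -/
theorem ex_one (h0 : ∀ z, G.Ty 1 0 z → G.db z = 0 → z = 0) {a : S} (ha : G.d a = 0)
    (h1 : G.pr 1 0 a + G.pr 0 1 a = a) : G.Ex a := by
  obtain ⟨z, z1, z2, z3⟩ := G.exists_dec ha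
  rwa [Finset.sum_eq_zero, sub_zero] at z3
  rintro ⟨p, q⟩ -
  by_cases e1 : (p, q) = (1, 0)
  · rw [e1]; exact h0 _ (z1 (1, 0)).ty (z1 (1, 0)).db
  by_cases e2 : (p, q) = (0, 1)
  · rw [e2, ← G.cj_cj (z (0, 1)), h0 _ (z1 (0, 1)).cj.ty (z1 (0, 1)).cj.db, map_zero]
  refine z2 _ ?_
  rw [← h1, map_add, (G.ty_pr 1 0 a).pr_ne e1, (G.ty_pr 0 1 a).pr_ne e2, add_zero]

end KP

end

end Crest.Agent.X262.Kah
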